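import Vale.Agent.P022.H601.Frat

/-!
# P022, chapter G: a group acting on a `2`-extension acts on Kummer classes through a `2`-group

`L / F` Galois with group a finite `2`-group, `ρ` a group of field automorphisms of `L` which
preserve `F` and every quadratic subextension: then a fixed `2`-power of every element commutes
with `Gal(L/F)` (`exists_commute`), and acts trivially on `{h : h ^ (2 ^ n) ∈ K} / Kˣ` for
every intermediate field `K` (`exists_trivial`).
-/

namespace Vale.Agent.P022.H601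

variable {F L : Type*} [Field F] [Field L] [Algebra F L] {G : Type*} [Group G]

/-- the elements of `F`, seen in `L`, are preserved by the action -/
def Pres (F : Type*) {L : Type*} [Field F] [Field L] [Algebra F L] {G : Type*} [Group G]
    (ρ : G →* (L ≃+* L)) : Prop :=
  ∀ (g : G) (a : F), ∃ b : F, ρ g (algebraMap F L a) = algebraMap F L b

theorem re_mul (a b : L ≃+* L) (y : L) : (a * b) y = a (b y) := rfl

theorem re_one (y : L) : (1 : L ≃+* L) y = y := rfl

theorem apply_inv (ρ : G →* (L ≃+* L)) (g : G) (y : L) : ρ g (ρ g⁻¹ y) = y := by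
  rw [← re_mul, ← map_mul, mul_inv_cancel, map_one, re_one]

theorem inv_apply (ρ : G →* (L ≃+* L)) (g : G) (y : L) : ρ g⁻¹ (ρ g y) = y := by
  rw [← re_mul, ← map_mul, inv_mul_cancel, map_one, re_one]

/-- conjugation by `ρ g` -/
noncomputable def cj (ρ : G →* (L ≃+* L)) (hF : Pres F ρ) (g : G) (x : L ≃ₐ[F] L) :
    L ≃ₐ[F] L :=
  AlgEquiv.ofRingEquiv (f := ((ρ g⁻¹).trans x.toRingEquiv).trans (ρ g)) (by
    intro a
    obtain ⟨b, hb⟩ := hF g⁻¹ a
    change ρ g (x (ρ g⁻¹ (algebraMap F L a))) = algebraMap F L a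
    rw [hb, AlgEquiv.commutes, ← hb, apply_inv])

theorem cj_apply (ρ : G →* (L ≃+* L)) (hF : Pres F ρ) (g : G) (x : L ≃ₐ[F] L) (y : L) :
    cj ρ hF g x y = ρ g (x (ρ g⁻¹ y)) := rfl

/-- the conjugation action of `G` on `Gal(L/F)` -/
noncomputable def conjHom (ρ : G →* (L ≃+* L)) (hF : Pres F ρ) : G →* MulAut (L ≃ₐ[F] L) where
  toFun g :=
    { toFun := cj ρ hF g
      invFun := cj ρ hF g⁻¹
      left_inv := fun x => by
        ext y
        rw [cj_apply, cj_apply, inv_inv, inv_apply, inv_apply]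
      right_inv := fun x => by
        ext y
        rw [cj_apply, cj_apply, inv_inv, apply_inv, apply_inv]
      map_mul' := fun x z => by
        ext y
        rw [cj_apply, AlgEquiv.mul_apply, AlgEquiv.mul_apply, cj_apply, cj_apply, inv_apply] }
  map_one' := by
    ext x y
    change cj ρ hF 1 x y = x y
    rw [cj_apply, inv_one, map_one, re_one, re_one]
  map_mul' g h := by
    ext x y
    change cj ρ hF (g * h) x y = cj ρ hF g (cj ρ hF h x) y
    rw [cj_apply, cj_apply, cj_apply, mul_inv_rev, map_mul, map_mul, re_mul,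
      re_mul]

theorem conjHom_apply (ρ : G →* (L ≃+* L)) (hF : Pres F ρ) (g : G) (x : L ≃ₐ[F] L) (y : L) :
    conjHom ρ hF g x y = ρ g (x (ρ g⁻¹ y)) := rfl

/-- for a character `χ` of order two of `Gal(L/F)` there is `s` with `x s = ± s`, the sign being
`χ x` -/
theorem exists_sqrt [FiniteDimensional F L] [IsGalois F L] (h2 : (2 : F) ≠ 0)
    (χ : (L ≃ₐ[F] L) →* Multiplicative (ZMod 2)) :
    ∃ s : L, s ≠ 0 ∧ (∃ a : F, s ^ 2 = algebraMap F L a) ∧
      ∀ x : L ≃ₐ[F] L, (χ x = 1 → x s = s) ∧ (χ x ≠ 1 → x s = -s) := by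
  have h2L : (2 : L) ≠ 0 := by
    intro h
    apply h2
    apply (algebraMap F L).injective
    rw [map_ofNat, map_zero, h]
  have two : ∀ a b : Multiplicative (ZMod 2), a ≠ 1 → b ≠ 1 → a * b = 1 := by decide
  by_cases hχ : ∃ x₀, χ x₀ ≠ 1
  · obtain ⟨x₀, hx₀⟩ := hχ
    let H : Subgroup (L ≃ₐ[F] L) := χ.ker
    have hH : H ≠ ⊤ := fun h => hx₀ (by
      have : x₀ ∈ H := by rw [h]; exact Subgroup.mem_top x₀
      exact this)
    -- an element fixed by `H` and not by `x₀`
    obtain ⟨t, ht, htx⟩ : ∃ t : L, (∀ x ∈ H, x t = t) ∧ x₀ t ≠ t := by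
      by_contra hcon
      push Not at hcon
      have h3 : x₀ ∈ (IntermediateField.fixedField H).fixingSubgroup := by
        rw [IntermediateField.mem_fixingSubgroup_iff]
        intro y hy
        exact hcon y fun x hx => (IntermediateField.mem_fixedField_iff H y).1 hy x hx
      rw [IntermediateField.fixingSubgroup_fixedField] at h3
      exact hx₀ h3
    refine ⟨t - x₀ t, sub_ne_zero.2 fun h => htx h.symm, ?_, ?_⟩
    all_goals
      have hx0s : ∀ x : L ≃ₐ[F] L, χ x ≠ 1 → x (t - x₀ t) = -(t - x₀ t) := by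
        intro x hx
        have e1 : x t = x₀ t := by
          have h4 : x₀⁻¹ * x ∈ H := by
            change χ (x₀⁻¹ * x) = 1
            rw [map_mul, map_inv]
            have h5 : (χ x₀)⁻¹ ≠ 1 := by
              rw [Ne, inv_eq_one]
              exact hx₀
            exact two _ _ h5 hx
          have h6 := ht _ h4
          rw [AlgEquiv.mul_apply] at h6
          have h7 := congrArg x₀ h6
          rw [← AlgEquiv.mul_apply, mul_inv_cancel, AlgEquiv.one_apply] at h7
          exact h7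
        have e2 : x (x₀ t) = t := by
          have h4 : x * x₀ ∈ H := by
            change χ (x * x₀) = 1
            rw [map_mul]
            exact two _ _ hx hx₀
          have h6 := ht _ h4
          rwa [AlgEquiv.mul_apply] at h6
        rw [map_sub, e1, e2, neg_sub]
      have hx1s : ∀ x : L ≃ₐ[F] L, χ x = 1 → x (t - x₀ t) = t - x₀ t := by
        intro x hx
        have e2 : x (x₀ t) = x₀ t := by
          have h4 : x₀⁻¹ * x * x₀ ∈ H := by
            change χ (x₀⁻¹ * x * x₀) = 1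
            rw [map_mul, map_mul, hx, mul_one, ← map_mul, inv_mul_cancel, map_one]
          have h6 := ht _ h4
          rw [AlgEquiv.mul_apply, AlgEquiv.mul_apply] at h6
          have h7 := congrArg x₀ h6
          rw [← AlgEquiv.mul_apply, mul_inv_cancel, AlgEquiv.one_apply] at h7
          exact h7
        rw [map_sub, ht x hx, e2]
    · have h8 : ∀ x : L ≃ₐ[F] L, x ((t - x₀ t) ^ 2) = (t - x₀ t) ^ 2 := by
        intro x
        rw [map_pow]
        by_cases hx : χ x = 1
        · rw [hx1s x hx]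
        · rw [hx0s x hx, neg_sq]
      obtain ⟨a, ha⟩ := (IsGalois.mem_bot_iff_fixed (F := F) (E := L) _).2 h8
      exact ⟨a, ha.symm⟩
    · exact fun x => ⟨hx1s x, hx0s x⟩
  · push Not at hχ
    refine ⟨1, one_ne_zero, ⟨1, by rw [one_pow, map_one]⟩, fun x => ⟨fun _ => map_one x, fun h => ?_⟩⟩
    exact absurd (hχ x) h

/-- a fixed power `2 ^ k` of every element of `G` commutes with `Gal(L/F)` -/
theorem exists_commute [FiniteDimensional F L] [IsGalois F L] (h2 : (2 : F) ≠ 0)
    (hP : IsPGroup 2 (L ≃ₐ[F] L)) (ρ : G →* (L ≃+* L)) (hF : Pres F ρ)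
    (hs : ∀ (g : G) (s : L), s ≠ 0 → (∃ a : F, s ^ 2 = algebraMap F L a) →
      ∃ c : F, ρ g s = algebraMap F L c * s) :
    ∃ k : ℕ, ∀ (g : G) (x : L ≃ₐ[F] L) (y : L), ρ (g ^ 2 ^ k) (x y) = x (ρ (g ^ 2 ^ k) y) := by
  have h2L : (2 : L) ≠ 0 := by
    intro h
    apply h2
    apply (algebraMap F L).injective
    rw [map_ofNat, map_zero, h]
  obtain ⟨k, hk⟩ := exists_pow_eq hP (conjHom ρ hF) (by
    intro g χ x
    obtain ⟨s, hs0, ha, hx⟩ := exists_sqrt h2 χ
    obtain ⟨c, hc⟩ := hs g⁻¹ s hs0 ha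
    have two : ∀ a b : Multiplicative (ZMod 2), a ≠ 1 → b ≠ 1 → a = b := by decide
    have hne : s ≠ -s := by
      intro h
      apply hs0
      have : 2 * s = 0 := by rw [two_mul]; nth_rewrite 2 [h]; exact add_neg_cancel s
      exact (mul_eq_zero.1 this).resolve_left h2L
    by_cases h1 : χ x = 1
    · rw [h1]
      by_contra h3
      have e1 := (hx (conjHom ρ hF g x)).2 h3
      rw [conjHom_apply, hc, map_mul, AlgEquiv.commutes, (hx x).1 h1, ← hc, apply_inv] at e1
      exact hne e1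
    · by_cases h3 : χ (conjHom ρ hF g x) = 1
      · exfalso
        have e1 := (hx (conjHom ρ hF g x)).1 h3
        rw [conjHom_apply, hc, map_mul, AlgEquiv.commutes, (hx x).2 h1, mul_neg, ← hc, map_neg,
          apply_inv] at e1
        exact hne e1.symm
      · exact two _ _ h3 h1)
  refine ⟨k, fun g x y => ?_⟩
  have h1 := hk g x
  have h3 := DFunLike.congr_fun h1 (ρ (g ^ 2 ^ k) y)
  rw [conjHom_apply, inv_apply] at h3
  exact h3

/-- **the action on Kummer classes is through a `2`-group**: if `F` contains a primitive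
`2 ^ n`-th root of unity, there is `k` such that for all `g` the automorphism `ρ (g ^ 2 ^ k)`
multiplies every `h` with `h ^ (2 ^ n) ∈ K` by an element of `K` -/
theorem exists_trivial [FiniteDimensional F L] [IsGalois F L] (h2 : (2 : F) ≠ 0)
    (hP : IsPGroup 2 (L ≃ₐ[F] L)) (ρ : G →* (L ≃+* L)) (hF : Pres F ρ)
    (hs : ∀ (g : G) (s : L), s ≠ 0 → (∃ a : F, s ^ 2 = algebraMap F L a) →
      ∃ c : F, ρ g s = algebraMap F L c * s)
    (n : ℕ) (ζ : F) (hζ : IsPrimitiveRoot ζ (2 ^ n)) :
    ∃ k : ℕ, ∀ (g : G) (K : IntermediateField F L) (h : L), h ≠ 0 → h ^ 2 ^ n ∈ K →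
      ∃ u ∈ K, ρ (g ^ 2 ^ k) h = u * h := by
  obtain ⟨k, hk⟩ := exists_commute h2 hP ρ hF hs
  have hζL : IsPrimitiveRoot (algebraMap F L ζ) (2 ^ n) := hζ.map_of_injective (algebraMap F L).injective
  have hpos : 0 < 2 ^ n := by positivity
  -- `ρ (g ^ 2 ^ n)` fixes the roots of unity
  have hfix : ∀ (g : G) (z : L), z ^ 2 ^ n = 1 → ρ (g ^ 2 ^ n) z = z := by
    intro g z hz
    obtain ⟨a, ha⟩ : ∃ a : ℕ, ρ g (algebraMap F L ζ) = (algebraMap F L ζ) ^ a := by
      obtain ⟨a, -, ha⟩ := hζL.eq_pow_of_pow_eq_one (ξ := ρ g (algebraMap F L ζ)) (by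
        rw [← map_pow, hζL.pow_eq_one, map_one])
      exact ⟨a, ha.symm⟩
    have ha1 : ∀ m : ℕ, ρ (g ^ m) (algebraMap F L ζ) = (algebraMap F L ζ) ^ a ^ m := by
      intro m
      induction m with
      | zero => rw [pow_zero, map_one, re_one, pow_zero, pow_one]
      | succ m ih =>
        rw [pow_succ', map_mul, re_mul, ih, map_pow, ha, ← pow_mul, pow_succ']
    obtain ⟨i, -, hi⟩ := hζL.eq_pow_of_pow_eq_one hz
    rw [← hi, map_pow, ha1]
    -- `a` is odd (or `n = 0`)
    rcases Nat.eq_zero_or_pos n with hn | hn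
    · subst hn
      have : algebraMap F L ζ = 1 := by
        have := hζL.pow_eq_one
        rwa [pow_zero, pow_one] at this
      rw [this, one_pow, one_pow]
    · have hodd : Nat.Coprime a (2 ^ n) := by
        have h5 : IsPrimitiveRoot (ρ g (algebraMap F L ζ)) (2 ^ n) :=
          hζL.map_of_injective (ρ g).injective
        rw [ha] at h5
        exact (hζL.pow_iff_coprime hpos a).1 h5
      have h6 : a ^ 2 ^ n ≡ 1 [MOD 2 ^ n] := by
        have h7 : a ^ Nat.totient (2 ^ n) ≡ 1 [MOD 2 ^ n] := Nat.ModEq.pow_totient hodd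
        rw [Nat.totient_prime_pow Nat.prime_two hn] at h7
        have h8 : 2 ^ n = 2 ^ (n - 1) * (2 - 1) * 2 := by
          rw [Nat.mul_assoc, Nat.add_one_sub_one, one_mul, ← pow_succ, Nat.sub_add_cancel hn]
        have h9 := h7.pow 2
        rw [← pow_mul, one_pow, ← h8] at h9
        exact h9
      have h10 : (algebraMap F L ζ) ^ a ^ 2 ^ n = algebraMap F L ζ := by
        conv_rhs => rw [← pow_one (algebraMap F L ζ)]
        rw [← Nat.div_add_mod (a ^ 2 ^ n) (2 ^ n)]
        rw [pow_add, pow_mul, hζL.pow_eq_one, one_pow, one_mul]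
        rw [h6]
        conv_rhs => rw [← Nat.div_add_mod 1 (2 ^ n)]
        rw [pow_add, pow_mul, hζL.pow_eq_one, one_pow, one_mul]
      rw [h10]
  refine ⟨k + n, fun g K h h0 hh => ?_⟩
  have hcomm : ∀ (x : L ≃ₐ[F] L) (y : L),
      ρ (g ^ 2 ^ (k + n)) (x y) = x (ρ (g ^ 2 ^ (k + n)) y) := by
    intro x y
    rw [pow_add, mul_comm, pow_mul]
    exact hk (g ^ 2 ^ n) x y
  have hz : ∀ z : L, z ^ 2 ^ n = 1 → ρ (g ^ 2 ^ (k + n)) z = z := by
    intro z hz
    rw [pow_add, pow_mul]
    exact hfix (g ^ 2 ^ k) z hz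
  refine ⟨ρ (g ^ 2 ^ (k + n)) h / h, ?_, (div_mul_cancel₀ _ h0).symm⟩
  rw [← IsGalois.fixedField_fixingSubgroup K, IntermediateField.mem_fixedField_iff]
  intro x hx
  have hxh : (x h / h) ^ 2 ^ n = 1 := by
    rw [div_pow, ← map_pow, (IntermediateField.mem_fixingSubgroup_iff K x).1 hx _ hh]
    exact div_self (pow_ne_zero _ h0)
  have e1 : x h = x h / h * h := (div_mul_cancel₀ _ h0).symm
  rw [map_div₀, ← hcomm]
  nth_rewrite 1 [e1]
  nth_rewrite 2 [e1]
  rw [map_mul, hz _ hxh]
  have hc0 : x h / h ≠ 0 := by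
    intro h11
    rw [h11, zero_pow (by positivity)] at hxh
    exact zero_ne_one hxh
  rw [mul_div_mul_left _ _ hc0]

end Vale.Agent.P022.H601
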