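import Mathlib
import Vale.Agent.P022.H716.Pts

/-!
# P022, chapter G: square classes of `k(p)`, `k` algebraically closed

If `s ^ 2 ∈ k(p)` and the points outside `S` are unramified in `k(p, s)`, then
`s ^ 2 = c ^ 2 * ∏ (p - i)`, `i` in a finite subset of `S`; so every semilinear automorphism which
fixes `p` and `S` multiplies `s` by an element of `k(p)`.
-/

open Polynomial
open Vale.Agent.P022.H716 (IsOrd ord_aeval)

namespace Vale.Agent.P022.H601

variable {k : Type*} [Field k]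

/-- a polynomial all of whose roots outside `S` have even multiplicity is a square times a product
of `X - i`, `i ∈ S` -/
theorem exists_sq_prod [IsAlgClosed k] (P : k[X]) (hP : P ≠ 0) (S : Set k)
    (h : ∀ a ∉ S, Even (P.rootMultiplicity a)) :
    ∃ Q : k[X], Q ≠ 0 ∧ ∃ I : Finset k, (∀ i ∈ I, i ∈ S) ∧ P = Q ^ 2 * ∏ i ∈ I, (X - C i) := by
  classical
  obtain ⟨b, hb⟩ := IsAlgClosed.exists_pow_nat_eq P.leadingCoeff (n := 2) (by norm_num)
  have hspl : P.roots.card = P.natDegree := splits_iff_card_roots.1 (IsAlgClosed.splits P)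
  have h1 : P = C P.leadingCoeff *
      ∏ a ∈ P.roots.toFinset, (X - C a) ^ rootMultiplicity a P := by
    rw [← prod_multiset_root_eq_finset_root]
    exact (C_leadingCoeff_mul_prod_multiset_X_sub_C hspl).symm
  have hb0 : b ≠ 0 := by
    rintro rfl
    rw [zero_pow two_ne_zero] at hb
    exact hP (leadingCoeff_eq_zero.1 hb.symm)
  refine ⟨C b * ∏ a ∈ P.roots.toFinset, (X - C a) ^ (rootMultiplicity a P / 2), ?_,
    P.roots.toFinset.filter fun a => ¬ Even (rootMultiplicity a P), ?_, ?_⟩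
  · refine mul_ne_zero (C_ne_zero.2 hb0) (Finset.prod_ne_zero_iff.2 fun a _ => ?_)
    exact pow_ne_zero _ (X_sub_C_ne_zero a)
  · intro i hi
    by_contra hS
    exact (Finset.mem_filter.1 hi).2 (h i hS)
  · rw [mul_pow, ← C_pow, hb, Finset.prod_filter, mul_assoc, ← Finset.prod_pow,
      ← Finset.prod_mul_distrib]
    conv_lhs => rw [h1]
    congr 1
    refine Finset.prod_congr rfl fun a _ => ?_
    rw [← pow_mul]
    by_cases he : Even (rootMultiplicity a P)
    · rw [if_neg (not_not.2 he), mul_one, Nat.div_mul_cancel he.two_dvd]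
    · rw [if_pos he, ← pow_succ]
      congr 1
      rw [Nat.not_even_iff_odd] at he
      obtain ⟨m, hm⟩ := he
      omega

variable {L : Type*} [Field L] [Algebra k L]

/-- the order at `a` of a polynomial in `p` is the multiplicity of the root `a` -/
theorem ord_poly {u : L → WithTop ℤ} (hu : IsOrd u)
    (hk : ∀ c : k, c ≠ 0 → u (algebraMap k L c) = 0) {p : L} {a : k}
    (hp : u (p - algebraMap k L a) = 1) (P : k[X]) (hP : P ≠ 0) :
    u (aeval p P) = ((P.rootMultiplicity a : ℤ) : WithTop ℤ) := by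
  obtain ⟨R, hR, hnd⟩ := P.exists_eq_pow_rootMultiplicity_mul_and_not_dvd hP a
  have h1 : u (aeval p R) = 0 := by
    have h2 := ord_aeval hu hk hp R
    refine le_antisymm (not_lt.1 fun h => ?_) h2.1
    exact hnd (dvd_iff_isRoot.2 (h2.2.1 h))
  have hp' : u (p - algebraMap k L a) = ((1 : ℤ) : WithTop ℤ) := hp
  conv_lhs => rw [hR]
  rw [map_mul, map_pow, map_sub, aeval_X, aeval_C, hu.mul, h1, add_zero,
    hu.pow hp', mul_one]

/-- **square classes of `k(p)` unramified outside `S`** -/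
theorem quad [IsAlgClosed k] (p : L) (S : Set k)
    (hpt : ∀ a ∉ S, ∃ u : L → WithTop ℤ, IsOrd u ∧ (∀ c : k, c ≠ 0 → u (algebraMap k L c) = 0) ∧
      u (p - algebraMap k L a) = 1)
    (s : L) (hs0 : s ≠ 0) (hs : s ^ 2 ∈ IntermediateField.adjoin k {p}) :
    ∃ c ∈ IntermediateField.adjoin k {p}, c ≠ 0 ∧ ∃ I : Finset k, (∀ i ∈ I, i ∈ S) ∧
      s ^ 2 = c ^ 2 * ∏ i ∈ I, (p - algebraMap k L i) := by
  obtain ⟨A, B, hAB⟩ := (IntermediateField.mem_adjoin_simple_iff k _).1 hs
  have hB : aeval p B ≠ 0 := by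
    intro h
    rw [h, div_zero] at hAB
    exact hs0 (pow_eq_zero_iff two_ne_zero |>.1 hAB)
  have hA : aeval p A ≠ 0 := by
    intro h
    rw [h, zero_div] at hAB
    exact hs0 (pow_eq_zero_iff two_ne_zero |>.1 hAB)
  have hA0 : A ≠ 0 := by rintro rfl; exact hA (map_zero _)
  have hB0 : B ≠ 0 := by rintro rfl; exact hB (map_zero _)
  have e1 : aeval p (A * B) = (s * aeval p B) ^ 2 := by
    rw [map_mul, mul_pow, hAB]
    field_simp
  obtain ⟨Q, hQ0, I, hI, hPQ⟩ := exists_sq_prod (A * B) (mul_ne_zero hA0 hB0) S (by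
    intro a ha
    obtain ⟨u, hu, hk, hp⟩ := hpt a ha
    have h1 := ord_poly hu hk hp (A * B) (mul_ne_zero hA0 hB0)
    obtain ⟨m, hm⟩ := hu.exists_int (mul_ne_zero hs0 hB)
    rw [e1, hu.pow hm 2] at h1
    have h2 : ((2 : ℕ) : ℤ) * m = ((A * B).rootMultiplicity a : ℤ) := by exact_mod_cast h1
    refine even_iff_two_dvd.2 ?_
    have h3 : (2 : ℤ) ∣ ((A * B).rootMultiplicity a : ℤ) := ⟨m, by rw [← h2]; norm_num⟩
    exact_mod_cast h3)
  have hmem : ∀ R : k[X], aeval p R ∈ IntermediateField.adjoin k {p} := fun R =>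
    (IntermediateField.mem_adjoin_simple_iff k _).2 ⟨R, 1, by rw [map_one, div_one]⟩
  have e2 : (aeval p Q) ^ 2 * ∏ i ∈ I, (p - algebraMap k L i) = (s * aeval p B) ^ 2 := by
    rw [← e1, hPQ, map_mul, map_pow, map_prod]
    congr 1
    refine Finset.prod_congr rfl fun i _ => ?_
    rw [map_sub, aeval_X, aeval_C]
  have hQ : aeval p Q ≠ 0 := by
    intro h
    rw [h, zero_pow two_ne_zero, zero_mul] at e2
    exact (pow_ne_zero 2 (mul_ne_zero hs0 hB)) e2.symm
  refine ⟨aeval p Q / aeval p B, div_mem (hmem Q) (hmem B), div_ne_zero hQ hB, I, hI, ?_⟩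
  rw [div_pow, div_mul_eq_mul_div, e2, mul_pow, mul_div_cancel_right₀ _ (pow_ne_zero 2 hB)]

/-- a semilinear automorphism which fixes `p` preserves `k(p)` -/
theorem adjoin_map (p : L) (σ : L ≃+* L) (σ₀ : k →+* k)
    (hσ : ∀ c, σ (algebraMap k L c) = algebraMap k L (σ₀ c)) (hp : σ p = p) {x : L}
    (hx : x ∈ IntermediateField.adjoin k {p}) : σ x ∈ IntermediateField.adjoin k {p} := by
  obtain ⟨A, B, rfl⟩ := (IntermediateField.mem_adjoin_simple_iff k _).1 hx
  have h1 : ∀ R : k[X], σ (aeval p R) = aeval p (R.map σ₀) := by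
    intro R
    rw [aeval_def, aeval_def, eval₂_map]
    change (σ : L →+* L) _ = _
    rw [hom_eval₂]
    have e : (σ : L →+* L).comp (algebraMap k L) = (algebraMap k L).comp σ₀ :=
      RingHom.ext hσ
    rw [e]
    congr 1
  rw [map_div₀, h1, h1]
  exact (IntermediateField.mem_adjoin_simple_iff k _).2 ⟨_, _, rfl⟩

/-- **quadratic subextensions are preserved**: the hypothesis `hs` of `exists_trivial` -/
theorem hs_of_quad [IsAlgClosed k] (p : L) (S : Set k)
    (hpt : ∀ a ∉ S, ∃ u : L → WithTop ℤ, IsOrd u ∧ (∀ c : k, c ≠ 0 → u (algebraMap k L c) = 0) ∧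
      u (p - algebraMap k L a) = 1)
    (σ : L ≃+* L) (σ₀ : k →+* k) (hσ : ∀ c, σ (algebraMap k L c) = algebraMap k L (σ₀ c))
    (hp : σ p = p) (hS : ∀ a ∈ S, σ₀ a = a)
    (s : L) (hs0 : s ≠ 0) (hs : s ^ 2 ∈ IntermediateField.adjoin k {p}) :
    ∃ c ∈ IntermediateField.adjoin k {p}, σ s = c * s := by
  obtain ⟨c, hc, hc0, I, hI, h1⟩ := quad p S hpt s hs0 hs
  have h2 : (σ s) ^ 2 = (σ c / c * s) ^ 2 := by
    rw [← map_pow, h1, map_mul, map_pow, map_prod, mul_pow, h1]
    have h3 : ∏ i ∈ I, σ (p - algebraMap k L i) = ∏ i ∈ I, (p - algebraMap k L i) := by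
      refine Finset.prod_congr rfl fun i hi => ?_
      rw [map_sub, hp, hσ, hS i (hI i hi)]
    rw [h3]
    field_simp
  have hcm : σ c / c ∈ IntermediateField.adjoin k {p} := div_mem (adjoin_map p σ σ₀ hσ hp hc) hc
  rcases sq_eq_sq_iff_eq_or_eq_neg.1 h2 with h3 | h3
  · exact ⟨_, hcm, h3⟩
  · exact ⟨_, neg_mem hcm, by rw [h3, neg_mul]⟩

omit [Algebra k L] in
/-- the order of a Laurent series, through a ring homomorphism -/
theorem isOrd_laurent (θ : L →+* LaurentSeries k) : IsOrd fun x => (θ x).orderTop := by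
  refine ⟨fun x => ?_, fun x y => ?_, fun x y => ?_⟩
  · rw [HahnSeries.orderTop_eq_top, map_eq_zero]
  · change (θ (x * y)).orderTop = (θ x).orderTop + (θ y).orderTop
    rw [map_mul, HahnSeries.orderTop_mul]
  · change min (θ x).orderTop (θ y).orderTop ≤ (θ (x + y)).orderTop
    rw [map_add]
    exact HahnSeries.min_orderTop_le_orderTop_add

/-- a point as a homomorphism to Laurent series with `θ p = a + X` gives an order with
`ord (p - a) = 1` -/
theorem exists_ord_of_pt (p : L) (a : k) (θ : L →+* LaurentSeries k)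
    (hθ : ∀ c : k, θ (algebraMap k L c) = HahnSeries.C c)
    (hp : θ p = HahnSeries.C a + HahnSeries.single 1 1) :
    ∃ u : L → WithTop ℤ, IsOrd u ∧ (∀ c : k, c ≠ 0 → u (algebraMap k L c) = 0) ∧
      u (p - algebraMap k L a) = 1 := by
  refine ⟨_, isOrd_laurent θ, fun c hc => ?_, ?_⟩
  · rw [hθ, HahnSeries.C_apply, HahnSeries.orderTop_single hc]
    rfl
  · rw [map_sub, hp, hθ, add_sub_cancel_left, HahnSeries.orderTop_single one_ne_zero]
    rfl

end Vale.Agent.P022.H601
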