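import Vale.Agent.P022.H132.L3.Defs
import Vale.Agent.P022.H853.L3.Dens
import Vale.Agent.P022.H853.L3.Cyc
import Vale.Agent.P022.H239.L3.Red

/-!
# P022-L3, [FAITH], the Frobenius half

For `g ∈ G_ℚ` there are a prime `ℓ ≡ χ(g) mod 8` and an odd `m` such that `t(g)` is congruent
modulo 2 to the `m`-th Dickson polynomial of `T_ℓ`, `ℓ S_ℓ`.
-/

open scoped NumberField

noncomputable section

namespace Vale.Agent.P022.H601

open Vale.Agent.P022 Vale.Agent.P022.H346 Vale.Agent.P022.H132.Z Vale.Agent.P022.H853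

/-! ### Dickson polynomials -/

/-- the Dickson polynomials `α ^ n + β ^ n`, `α + β = a`, `α β = b` -/
def dk {A : Type*} [Ring A] (a b : A) : ℕ → A
  | 0 => 2
  | 1 => a
  | n + 2 => a * dk a b (n + 1) - b * dk a b n

theorem dk_zero {A : Type*} [Ring A] (a b : A) : dk a b 0 = 2 := rfl

theorem dk_one {A : Type*} [Ring A] (a b : A) : dk a b 1 = a := rfl

theorem dk_add_two {A : Type*} [Ring A] (a b : A) (n : ℕ) :
    dk a b (n + 2) = a * dk a b (n + 1) - b * dk a b n := rfl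

theorem dk_map {A B F : Type*} [Ring A] [Ring B] [FunLike F A B] [RingHomClass F A B] (f : F)
    (a b : A) (n : ℕ) : f (dk a b n) = dk (f a) (f b) n := by
  induction n using Nat.twoStepInduction with
  | zero => rw [dk_zero, dk_zero, map_ofNat]
  | one => rw [dk_one, dk_one]
  | more n h1 h2 => rw [dk_add_two, dk_add_two, map_sub, map_mul, map_mul, h1, h2]

/-- `t(g ^ n)` -/
theorem TF_pow {G R : Type*} [Group G] [CommRing R] {t : G → R} {d : G →* Rˣ} (T : TF t d)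
    (g : G) (n : ℕ) : t (g ^ n) = dk (t g) (d g : R) n := by
  induction n using Nat.twoStepInduction with
  | zero => rw [pow_zero, dk_zero, T.one]
  | one => rw [pow_one, dk_one]
  | more n h1 h2 =>
    have e := T.mul (g ^ (n + 1)) g
    rw [← pow_succ, show g ^ (n + 1) * g⁻¹ = g ^ n by rw [pow_succ, mul_inv_cancel_right]] at e
    rw [dk_add_two, ← h1, ← h2]
    linear_combination -e

open Polynomial in
/-- modulo two, `b = 1` -/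
theorem dk_poly (n : ℕ) : (∃ Q : (ZMod 2)[X], dk (X : (ZMod 2)[X]) 1 (2 * n) = X ^ 2 * Q) ∧
    ∃ Q : (ZMod 2)[X], dk (X : (ZMod 2)[X]) 1 (2 * n + 1) = X + X ^ 2 * Q := by
  have h2 : (2 : (ZMod 2)[X]) = 0 := by
    have : ((2 : ℕ) : (ZMod 2)[X]) = 0 := CharP.cast_eq_zero _ 2
    exact_mod_cast this
  induction n with
  | zero =>
    refine ⟨⟨0, ?_⟩, ⟨0, ?_⟩⟩
    · rw [mul_zero, mul_zero, dk_zero, h2]
    · rw [mul_zero, mul_zero, add_zero, zero_add, dk_one]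
  | succ n ih =>
    obtain ⟨⟨Q, hQ⟩, ⟨R, hR⟩⟩ := ih
    have e0 : dk (X : (ZMod 2)[X]) 1 (2 * (n + 1)) = X ^ 2 * (1 + X * R - Q) := by
      rw [show 2 * (n + 1) = 2 * n + 2 by ring, dk_add_two, hQ, hR]
      ring
    refine ⟨⟨_, e0⟩, ⟨X * (1 + X * R - Q) + R, ?_⟩⟩
    rw [show 2 * (n + 1) + 1 = 2 * n + 1 + 2 by ring, dk_add_two, hR,
      show 2 * n + 1 + 1 = 2 * (n + 1) by ring, e0]
    linear_combination (-(X : (ZMod 2)[X]) - X ^ 2 * R) * h2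

open Polynomial in
/-- for odd `m` the linear part of the Dickson polynomial modulo two is `a` -/
theorem dk_odd {m : ℕ} (hm : Odd m) : ∃ Q : (ZMod 2)[X], ∀ {A : Type} [Ring A]
    [Algebra (ZMod 2) A] (a : A), dk a 1 m = a + a ^ 2 * aeval a Q := by
  obtain ⟨k, rfl⟩ := hm
  obtain ⟨Q, hQ⟩ := (dk_poly k).2
  refine ⟨Q, fun {A} _ _ a => ?_⟩
  have h := congrArg (aeval a) hQ
  rw [dk_map (aeval a : (ZMod 2)[X] →ₐ[ZMod 2] A)] at h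
  simpa only [map_add, map_mul, map_pow, map_one, aeval_X] using h

/-! ### Frobenius elements -/

/-- the index of `(ZMod 8)ˣ` -/
theorem sq_unit_eight (u : (ZMod 8)ˣ) : u ^ 2 = 1 := by
  revert u
  decide

/-- an odd power can be inverted in a 2-group -/
theorem exists_inv_pow {G : Type*} [Group G] {x : G} {a m : ℕ} (ha : x ^ 2 ^ a = 1) (hm : Odd m) :
    ∃ m' : ℕ, Odd m' ∧ (x ^ m) ^ m' = x := by
  have hpos : 0 < Nat.totient (2 ^ a) := Nat.totient_pos.2 (by positivity)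
  refine ⟨m ^ (Nat.totient (2 ^ a) - 1), hm.pow, ?_⟩
  rw [← pow_mul, ← pow_succ', Nat.sub_add_cancel hpos]
  have h1 : m ^ Nat.totient (2 ^ a) ≡ 1 [MOD 2 ^ a] :=
    Nat.ModEq.pow_totient (Nat.Coprime.pow_right a (Nat.coprime_two_right.2 hm))
  have h2 : orderOf x ∣ 2 ^ a := orderOf_dvd_of_pow_eq_one ha
  have h3 : x ^ (m ^ Nat.totient (2 ^ a)) = x ^ 1 :=
    pow_eq_pow_iff_modEq.2 (h1.of_dvd h2)
  rw [h3, pow_one]

/-- **the Frobenius half of [FAITH]** -/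
theorem frob_dk {i : ℕ} (w : WD i) (g : GQ) (S : Finset ℕ) :
    ∃ (ℓ : PA 3) (m : ℕ), Odd m ∧ ((ℓ.1 : ℕ) : ZMod 8) = (cyc 8 g : ZMod 8) ∧ ℓ.1 ∉ S ∧
      (2 : w.T) ∣ w.t g - w.ev (dk (FreeAlgebra.ι ℤ (Sum.inl ℓ)) (FreeAlgebra.ι ℤ (Sum.inr ℓ)) m) := by
  classical
  obtain ⟨U, hU, hUt⟩ := w.cont 1
  have hUn := hU.nor
  let N : Subgroup GQ := U ⊓ (cyc 8).ker
  have hN : N.Normal := inferInstance
  have hNo : IsOpen (N : Set GQ) := by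
    rw [Subgroup.coe_inf]
    exact hU.op.inter (isOpen_cyc 8)
  have hN2 : ∀ h : GQ, ∃ a : ℕ, (QuotientGroup.mk' N h) ^ 2 ^ a = 1 := by
    intro h
    obtain ⟨a, ha⟩ := hU.two h
    refine ⟨a + 1, ?_⟩
    rw [← map_pow, QuotientGroup.mk'_apply, QuotientGroup.eq_one_iff]
    refine Subgroup.mem_inf.2 ⟨?_, ?_⟩
    · rw [pow_succ, pow_mul]
      exact U.pow_mem ha 2
    · rw [MonoidHom.mem_ker, map_pow, pow_succ', pow_mul, sq_unit_eight, one_pow]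
  obtain ⟨ℓ, hℓ, hℓS, P, hP, hlP, φ, hφ, m, hm, hφm⟩ := dens (QuotientGroup.mk' N)
    (by rw [QuotientGroup.ker_mk']; exact hNo) hN2 g (S ∪ {2, 3})
  have hfr : IsFrob ℓ φ := ⟨P, hP, hlP, hφ⟩
  rw [Finset.mem_union, Finset.mem_insert, Finset.mem_singleton] at hℓS
  push Not at hℓS
  obtain ⟨hℓS, h2, h3⟩ := hℓS
  have hPA : ¬ ℓ ∣ 2 * 3 := by
    rw [hℓ.dvd_mul, Nat.prime_dvd_prime_iff_eq hℓ Nat.prime_two,
      Nat.prime_dvd_prime_iff_eq hℓ Nat.prime_three]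
    tauto
  obtain ⟨a, ha⟩ := hN2 g
  obtain ⟨m', hm', hmm⟩ := exists_inv_pow ha hm
  rw [← hφm, ← map_pow] at hmm
  have hmem : (φ ^ m')⁻¹ * g ∈ N := by
    rw [← QuotientGroup.eq]
    exact hmm
  obtain ⟨hu, -⟩ := Subgroup.mem_inf.1 hmem
  refine ⟨⟨ℓ, hℓ, hPA⟩, m', hm', ?_, hℓS, ?_⟩
  · show ((ℓ : ℕ) : ZMod 8) = _
    have h8 : ¬ ℓ ∣ 8 := by
      intro h
      have : ℓ ∣ 2 ^ 3 := h
      exact h2 ((Nat.prime_dvd_prime_iff_eq hℓ Nat.prime_two).1 (hℓ.dvd_of_dvd_pow this))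
    rw [← cyc_frob (m := 8) hℓ h8 hfr]
    have hmem2 : (g ^ m)⁻¹ * φ ∈ N := by
      rw [← QuotientGroup.eq]
      exact (hφm.trans (map_pow _ _ _).symm).symm
    obtain ⟨-, hk⟩ := Subgroup.mem_inf.1 hmem2
    rw [MonoidHom.mem_ker, map_mul, map_inv, map_pow, inv_mul_eq_one] at hk
    rw [← hk]
    obtain ⟨k, rfl⟩ := hm
    rw [pow_succ, pow_mul, sq_unit_eight, one_pow, one_mul]
  · rw [dk_map w.ev, w.evT ⟨ℓ, hℓ, hPA⟩ φ hfr, w.evS ⟨ℓ, hℓ, hPA⟩ φ hfr, ← TF_pow w.htf]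
    have h := (hUt (φ ^ m') _ hu).1
    rwa [mul_inv_cancel_left, pow_one] at h

/-- Frobenius elements at `3` act on the eighth roots of unity by the third power -/
theorem cyc_eight_frob {P : Ideal (𝓞 Qb)} (hP : P.IsPrime) (h3 : ((3 : ℕ) : 𝓞 Qb) ∈ P) {q : ℕ}
    {σ : GQ} (hσ : ∀ x : 𝓞 Qb, σ • x - x ^ q ∈ P) : (cyc 8 σ : ZMod 8) = q := by
  have hmP : ((8 : ℕ) : 𝓞 Qb) ∉ P := by
    intro h
    have := H20.dvd_of_mem Nat.prime_three hP h3 (d := (8 : ℤ)) (by exact_mod_cast h)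
    norm_num at this
  have h := cyc_of_pow (m := 8) dvd_rfl hP hmP hσ
  rw [← ZMod.natCast_zmod_val ((cyc 8 σ : (ZMod 8)ˣ) : ZMod 8)]
  exact (ZMod.natCast_eq_natCast_iff _ _ _).2 h

theorem cyc_eight_gen {P : Ideal (𝓞 Qb)} (hP : P.IsPrime) (h3 : ((3 : ℕ) : 𝓞 Qb) ∈ P)
    {c τ σ : GQ} (hc : IsConj c) (hτ : ∀ x : 𝓞 Qb, τ • x - x ∈ P)
    (hσ : ∀ x : 𝓞 Qb, σ • x - x ^ 3 ∈ P) : (cyc 8 (c * τ * σ) : ZMod 8) = 5 := by
  have h1 : (cyc 8 τ : ZMod 8) = ((1 : ℕ) : ZMod 8) := cyc_eight_frob hP h3 (q := 1) (by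
    intro x
    rw [pow_one]
    exact hτ x)
  have h2 : (cyc 8 σ : ZMod 8) = ((3 : ℕ) : ZMod 8) := cyc_eight_frob hP h3 hσ
  rw [map_mul, map_mul, Units.val_mul, Units.val_mul, cyc_conj hc, h1, h2]
  decide

/-- `x = t(σ)` -/
theorem frob_sigma {i : ℕ} (w : WD i) {P : Ideal (𝓞 Qb)} (hP : P.IsPrime)
    (h3 : ((3 : ℕ) : 𝓞 Qb) ∈ P) {σ : GQ} (hσ : ∀ x : 𝓞 Qb, σ • x - x ^ 3 ∈ P) (S : Finset ℕ) :
    ∃ (ℓ : PA 3) (m : ℕ), Odd m ∧ ℓ.1 % 8 = 3 ∧ ℓ.1 ∉ S ∧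
      (2 : w.T) ∣ w.t σ - w.ev (dk (FreeAlgebra.ι ℤ (Sum.inl ℓ)) (FreeAlgebra.ι ℤ (Sum.inr ℓ)) m) := by
  obtain ⟨ℓ, m, hm, h8, hS, h⟩ := frob_dk w σ S
  refine ⟨ℓ, m, hm, ?_, hS, h⟩
  rw [cyc_eight_frob hP h3 hσ] at h8
  exact (ZMod.natCast_eq_natCast_iff _ _ _).1 h8

/-- `C = t(c τ σ)` -/
theorem frob_gen {i : ℕ} (w : WD i) {P : Ideal (𝓞 Qb)} (hP : P.IsPrime)
    (h3 : ((3 : ℕ) : 𝓞 Qb) ∈ P) {c τ σ : GQ} (hc : IsConj c) (hτ : ∀ x : 𝓞 Qb, τ • x - x ∈ P)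
    (hσ : ∀ x : 𝓞 Qb, σ • x - x ^ 3 ∈ P) (S : Finset ℕ) :
    ∃ (ℓ : PA 3) (m : ℕ), Odd m ∧ ℓ.1 % 8 = 5 ∧ ℓ.1 ∉ S ∧
      (2 : w.T) ∣ w.t (c * τ * σ) -
        w.ev (dk (FreeAlgebra.ι ℤ (Sum.inl ℓ)) (FreeAlgebra.ι ℤ (Sum.inr ℓ)) m) := by
  obtain ⟨ℓ, m, hm, h8, hS, h⟩ := frob_dk w (c * τ * σ) S
  refine ⟨ℓ, m, hm, ?_, hS, h⟩
  rw [cyc_eight_gen hP h3 hc hτ hσ] at h8
  have h9 : ((ℓ.1 : ℕ) : ZMod 8) = ((5 : ℕ) : ZMod 8) := h8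
  exact (ZMod.natCast_eq_natCast_iff _ _ _).1 h9

/-! ### The lower side -/

/-- the word on the reductions modulo two -/
theorem lift_dk (ℓ : PA 3) (m : ℕ) :
    FreeAlgebra.lift ℤ H239.L3.hbar
      (dk (FreeAlgebra.ι ℤ (Sum.inl ℓ)) (FreeAlgebra.ι ℤ (Sum.inr ℓ)) m) =
    dk (H239.L3.hecE ℓ.1) 1 m := by
  rw [dk_map, FreeAlgebra.lift_ι_apply, FreeAlgebra.lift_ι_apply]
  rfl

end Vale.Agent.P022.H601
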