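import Mathlib
import Vale.Agent.P022.H30.Op
import Vale.Agent.P022.H790.A3

/-!
# P022-L3, chapter A, [REP]: the coefficients of `D ^ 3` and `D ^ 5` at the primes

`D = Σ q^(a²)`, `a` odd, modulo two.  `a_ℓ(D³)` is the parity of the number of `(a, b)` odd with
`a² + 2 b² = ℓ`, `a_ℓ(D⁵)` the parity of the number of `(a, b)` odd with `a² + 4 b² = ℓ`.
-/

namespace Vale.Agent.P022.H601

open Vale.Agent.P022.H30 (D dil)

/-! ### Representations of a prime by `a² + m b²` -/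

/-- uniqueness -/
theorem rep_unique {m a b c d : ℕ} {l : ℕ} (hm : 2 ≤ m) (hl : l.Prime) (h1 : a ^ 2 + m * b ^ 2 = l)
    (h2 : c ^ 2 + m * d ^ 2 = l) : a = c ∧ b = d := by
  have hp : Prime (l : ℤ) := Nat.prime_iff_prime_int.mp hl
  have e1 : (a : ℤ) ^ 2 + m * (b : ℤ) ^ 2 = l := by exact_mod_cast h1
  have e2 : (c : ℤ) ^ 2 + m * (d : ℤ) ^ 2 = l := by exact_mod_cast h2
  have hl0 : (0 : ℤ) < l := by exact_mod_cast hl.pos
  have hm' : (2 : ℤ) ≤ m := by exact_mod_cast hm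
  have hsmall : ∀ t s : ℤ, (l : ℤ) ^ 2 = s ^ 2 + m * t ^ 2 → (l : ℤ) ∣ t → t = 0 := by
    intro t s h ⟨u, hu⟩
    by_contra ht
    have hu0 : u ≠ 0 := by rintro rfl; exact ht (by rw [hu, mul_zero])
    have hu1 : 1 ≤ u ^ 2 := by
      have := sq_pos_of_ne_zero hu0
      omega
    rw [hu] at h
    have h3 : (l : ℤ) ^ 2 * (m * u ^ 2 - 1) ≤ 0 := by nlinarith [sq_nonneg s]
    have h4 : 0 < (l : ℤ) ^ 2 * (m * u ^ 2 - 1) := by
      apply mul_pos (by positivity)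
      nlinarith
    omega
  have hprod : ((a : ℤ) * d - b * c) * (a * d + b * c) = l * (d ^ 2 - b ^ 2) := by
    linear_combination (d : ℤ) ^ 2 * e1 - (b : ℤ) ^ 2 * e2
  have h0 : ((a : ℤ) * d - b * c) * (a * d + b * c) = 0 := by
    rcases hp.dvd_or_dvd (Dvd.intro _ hprod.symm : (l : ℤ) ∣ _) with h | h
    · rw [hsmall _ ((a : ℤ) * c + m * (b * d)) (by
        linear_combination (-(l : ℤ)) * e1 - ((a : ℤ) ^ 2 + m * (b : ℤ) ^ 2) * e2) h, zero_mul]
    · rw [hsmall _ ((a : ℤ) * c - m * (b * d)) (by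
        linear_combination (-(l : ℤ)) * e1 - ((a : ℤ) ^ 2 + m * (b : ℤ) ^ 2) * e2) h, mul_zero]
  rw [h0] at hprod
  have h5 : (d : ℤ) ^ 2 = b ^ 2 := by
    rcases mul_eq_zero.1 hprod.symm with h | h
    · omega
    · linarith
  have h6 : (a : ℤ) ^ 2 = c ^ 2 := by
    rw [h5] at e2
    linarith
  constructor
  · have : a ^ 2 = c ^ 2 := by exact_mod_cast h6
    exact Nat.pow_left_injective (n := 2) two_ne_zero this
  · have : b ^ 2 = d ^ 2 := by exact_mod_cast h5.symm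
    exact Nat.pow_left_injective (n := 2) two_ne_zero this

/-- Thue: `ℓ ≡ 3 mod 8` is `a² + 2 b²` -/
theorem exists_two {l : ℕ} (hl : l.Prime) (h3 : l % 8 = 3) : ∃ a b : ℕ, a ^ 2 + 2 * b ^ 2 = l := by
  have : Fact l.Prime := ⟨hl⟩
  have hl2 : l ≠ 2 := by rintro rfl; omega
  obtain ⟨x, hx⟩ : IsSquare (-2 : ZMod l) :=
    (ZMod.exists_sq_eq_neg_two_iff hl2).2 (Or.inr h3)
  set s := Nat.sqrt l with hs
  have hs1 : s * s ≤ l := Nat.sqrt_le l
  have hs2 : l < (s + 1) * (s + 1) := Nat.lt_succ_sqrt l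
  have hs3 : s * s < l := by
    refine lt_of_le_of_ne hs1 fun h => ?_
    rcases Nat.isUnit_iff.1 ((Nat.irreducible_iff_nat_prime l).2 hl |>.isUnit_or_isUnit h.symm |>.elim id id) with h'
    rw [h'] at h
    omega
  obtain ⟨u, v, huv, h⟩ : ∃ u v : Fin (s + 1) × Fin (s + 1), u ≠ v ∧
      ((u.1 : ℕ) : ZMod l) - x * ((u.2 : ℕ) : ZMod l) = ((v.1 : ℕ) : ZMod l) - x * ((v.2 : ℕ) : ZMod l) := by
    apply Fintype.exists_ne_map_eq_of_card_lt
    rw [ZMod.card, Fintype.card_prod, Fintype.card_fin]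
    exact hs2
  set a : ℤ := (u.1 : ℕ) - ((v.1 : ℕ) : ℤ) with ha
  set b : ℤ := (u.2 : ℕ) - ((v.2 : ℕ) : ℤ) with hb
  have hab : ((a : ℤ) : ZMod l) = x * ((b : ℤ) : ZMod l) := by
    rw [ha, hb]
    push_cast
    linear_combination h
  have hdvd : (l : ℤ) ∣ a ^ 2 + 2 * b ^ 2 := by
    rw [← ZMod.intCast_zmod_eq_zero_iff_dvd]
    push_cast
    rw [hab]
    linear_combination (-(b : ZMod l) ^ 2) * hx
  have ha1 : a ^ 2 < l := by
    have h1 : |a| ≤ s := by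
      rw [abs_le, ha]
      have := u.1.2
      have := v.1.2
      omega
    have h2 : a ^ 2 ≤ (s : ℤ) ^ 2 := sq_le_sq' (by have := (abs_le.1 h1).1; omega) (abs_le.1 h1).2
    have h3 : (s : ℤ) ^ 2 < l := by rw [pow_two]; exact_mod_cast hs3
    omega
  have hb1 : b ^ 2 < l := by
    have h1 : |b| ≤ s := by
      rw [abs_le, hb]
      have := u.2.2
      have := v.2.2
      omega
    have h2 : b ^ 2 ≤ (s : ℤ) ^ 2 := sq_le_sq' (by have := (abs_le.1 h1).1; omega) (abs_le.1 h1).2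
    have h3 : (s : ℤ) ^ 2 < l := by rw [pow_two]; exact_mod_cast hs3
    omega
  have hpos : 0 < a ^ 2 + 2 * b ^ 2 := by
    by_contra hn
    have h1 : a ^ 2 = 0 ∧ b ^ 2 = 0 := by
      constructor <;> nlinarith [sq_nonneg a, sq_nonneg b]
    have h2 : a = 0 := by simpa using h1.1
    have h3 : b = 0 := by simpa using h1.2
    apply huv
    apply Prod.ext
    · apply Fin.ext
      omega
    · apply Fin.ext
      omega
  obtain ⟨c, hc⟩ := hdvd
  have hl0 : (0 : ℤ) < l := by exact_mod_cast hl.pos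
  have hc0 : 0 < c := by
    rw [hc] at hpos
    exact (pos_iff_pos_of_mul_pos hpos).1 hl0
  have hc3 : c < 3 := by
    by_contra hn
    have : (l : ℤ) * 3 ≤ l * c := by
      apply mul_le_mul_of_nonneg_left (by omega) hl0.le
    omega
  have hc12 : c = 1 ∨ c = 2 := by omega
  rcases hc12 with rfl | rfl
  · refine ⟨a.natAbs, b.natAbs, ?_⟩
    zify
    rw [sq_abs, sq_abs, hc, mul_one]
  · have hev : (2 : ℤ) ∣ a := by
      have : (2 : ℤ) ∣ a ^ 2 := ⟨l - b ^ 2, by linarith⟩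
      exact Int.prime_two.dvd_of_dvd_pow this
    obtain ⟨e, he⟩ := hev
    refine ⟨b.natAbs, e.natAbs, ?_⟩
    zify
    rw [sq_abs, sq_abs]
    rw [he] at hc
    linarith

theorem sq_mod_eight {a : ℕ} (ha : Odd a) : a ^ 2 % 8 = 1 := by
  obtain ⟨k, rfl⟩ := ha
  have : 2 ∣ k * (k + 1) := (Nat.even_mul_succ_self k).two_dvd
  obtain ⟨j, hj⟩ := this
  have : (2 * k + 1) ^ 2 = 8 * j + 1 := by nlinarith
  omega

theorem exists_two_odd {l : ℕ} (hl : l.Prime) (h3 : l % 8 = 3) :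
    ∃ a b : ℕ, Odd a ∧ Odd b ∧ a ^ 2 + 2 * b ^ 2 = l := by
  obtain ⟨a, b, h⟩ := exists_two hl h3
  refine ⟨a, b, ?_, ?_, h⟩
  · rw [← Nat.not_even_iff_odd]
    rintro ⟨k, rfl⟩
    have : (k + k) ^ 2 = 4 * k ^ 2 := by ring
    omega
  · rw [← Nat.not_even_iff_odd]
    rintro ⟨k, rfl⟩
    have h4 : (k + k) ^ 2 = 4 * k ^ 2 := by ring
    have ha : Odd a := by
      rw [← Nat.not_even_iff_odd]
      rintro ⟨k, rfl⟩
      have : (k + k) ^ 2 = 4 * k ^ 2 := by ring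
      omega
    have := sq_mod_eight ha
    omega

theorem exists_four_odd {l : ℕ} (hl : l.Prime) (h5 : l % 8 = 5) :
    ∃ a b : ℕ, Odd a ∧ Odd b ∧ a ^ 2 + 4 * b ^ 2 = l := by
  have : Fact l.Prime := ⟨hl⟩
  have key : ∀ x y : ℕ, x ^ 2 + y ^ 2 = l → Even y → ∃ a b : ℕ, Odd a ∧ Odd b ∧
      a ^ 2 + 4 * b ^ 2 = l := by
    rintro x y h ⟨b, rfl⟩
    have h4 : (b + b) ^ 2 = 4 * b ^ 2 := by ring
    have hx : Odd x := by
      rw [← Nat.not_even_iff_odd]
      rintro ⟨k, rfl⟩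
      have : (k + k) ^ 2 = 4 * k ^ 2 := by ring
      omega
    refine ⟨x, b, hx, ?_, by omega⟩
    rw [← Nat.not_even_iff_odd]
    rintro ⟨k, rfl⟩
    have h6 : (k + k) ^ 2 = 4 * k ^ 2 := by ring
    have := sq_mod_eight hx
    omega
  obtain ⟨x, y, h⟩ := Nat.Prime.sq_add_sq (p := l) (by omega)
  rcases Nat.even_or_odd y with hy | hy
  · exact key x y h hy
  · rcases Nat.even_or_odd x with hx | hx
    · exact key y x (by omega) hx
    · exfalso
      have h1 := sq_mod_eight hx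
      have h2 := sq_mod_eight hy
      omega

/-! ### The coefficients -/

theorem coeff_D_eq (n : ℕ) (h : PowerSeries.coeff n D ≠ 0) : ∃ a, Odd a ∧ n = a ^ 2 := by
  classical
  unfold D at h
  rw [PowerSeries.coeff_mk] at h
  by_contra hn
  rw [if_neg hn] at h
  exact h rfl

theorem coeff_D_sq {a : ℕ} (ha : Odd a) : PowerSeries.coeff (a ^ 2) D = 1 := by
  classical
  unfold D
  rw [PowerSeries.coeff_mk, if_pos ⟨a, ha, rfl⟩]

theorem coeff_D_dil_ne {m l : ℕ} (h : PowerSeries.coeff l (D * dil m D) ≠ 0) :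
    ∃ a b : ℕ, Odd a ∧ Odd b ∧ a ^ 2 + m * b ^ 2 = l := by
  rw [PowerSeries.coeff_mul] at h
  obtain ⟨ij, hij, hne⟩ := Finset.exists_ne_zero_of_sum_ne_zero h
  rw [Finset.HasAntidiagonal.mem_antidiagonal] at hij
  obtain ⟨a, ha, hia⟩ := coeff_D_eq _ (left_ne_zero_of_mul hne)
  have h2 := right_ne_zero_of_mul hne
  unfold dil at h2
  rw [PowerSeries.coeff_mk] at h2
  by_cases hm : m ∣ ij.2
  · rw [if_pos hm] at h2
    obtain ⟨b, hb, hjb⟩ := coeff_D_eq _ h2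
    refine ⟨a, b, ha, hb, ?_⟩
    rw [← hia, ← hjb, Nat.mul_div_cancel' hm]
    exact hij
  · rw [if_neg hm] at h2
    exact absurd rfl h2

theorem coeff_D_dil {m l a b : ℕ} (hm : 2 ≤ m) (hl : l.Prime) (ha : Odd a) (hb : Odd b)
    (h : a ^ 2 + m * b ^ 2 = l) : PowerSeries.coeff l (D * dil m D) = 1 := by
  have hm0 : 0 < m := by omega
  rw [PowerSeries.coeff_mul, Finset.sum_eq_single (a ^ 2, m * b ^ 2)]
  · rw [coeff_D_sq ha]
    unfold dil
    rw [PowerSeries.coeff_mk, if_pos (Dvd.intro _ rfl), Nat.mul_div_cancel_left _ hm0,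
      coeff_D_sq hb, one_mul]
  · intro ij hij hne
    rw [Finset.HasAntidiagonal.mem_antidiagonal] at hij
    by_contra h0
    obtain ⟨c, hc, hic⟩ := coeff_D_eq _ (left_ne_zero_of_mul h0)
    have h2 := right_ne_zero_of_mul h0
    unfold dil at h2
    rw [PowerSeries.coeff_mk] at h2
    by_cases hmd : m ∣ ij.2
    · rw [if_pos hmd] at h2
      obtain ⟨d, hd, hjd⟩ := coeff_D_eq _ h2
      have h3 : ij.2 = m * d ^ 2 := by rw [← hjd, Nat.mul_div_cancel' hmd]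
      have h4 : c ^ 2 + m * d ^ 2 = l := by rw [← hic, ← h3]; exact hij
      obtain ⟨rfl, rfl⟩ := rep_unique hm hl h h4
      exact hne (Prod.ext hic h3)
    · rw [if_neg hmd] at h2
      exact h2 rfl
  · intro hn
    exact absurd (Finset.HasAntidiagonal.mem_antidiagonal.2 h) hn

theorem D_three : D ^ 3 = D * dil 2 D := by
  rw [pow_succ', Vale.Agent.P022.H790.A.sq_eq]
  rfl

theorem D_five : D ^ 5 = D * dil 4 D := by
  have h : D ^ 5 = D * (D ^ 2) ^ 2 := by ring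
  rw [h, Vale.Agent.P022.H790.A.sq_eq, Vale.Agent.P022.H790.A.sq_eq,
    Vale.Agent.P022.H790.A.dil_dil _ _ two_ne_zero]
  rfl

/-- [REP] -/
theorem coeff_three {l : ℕ} (hl : l.Prime) :
    (l % 8 = 3 → PowerSeries.coeff l (D ^ 3) = 1) ∧
      (l % 8 ≠ 3 → PowerSeries.coeff l (D ^ 3) = 0) := by
  rw [D_three]
  constructor
  · intro h
    obtain ⟨a, b, ha, hb, hab⟩ := exists_two_odd hl h
    exact coeff_D_dil le_rfl hl ha hb hab
  · intro h
    by_contra h0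
    obtain ⟨a, b, ha, hb, hab⟩ := coeff_D_dil_ne h0
    have h1 := sq_mod_eight ha
    have h2 := sq_mod_eight hb
    omega

/-- [REP] -/
theorem coeff_five {l : ℕ} (hl : l.Prime) :
    (l % 8 = 5 → PowerSeries.coeff l (D ^ 5) = 1) ∧
      (l % 8 ≠ 5 → PowerSeries.coeff l (D ^ 5) = 0) := by
  rw [D_five]
  constructor
  · intro h
    obtain ⟨a, b, ha, hb, hab⟩ := exists_four_odd hl h
    exact coeff_D_dil (by norm_num) hl ha hb hab
  · intro h
    by_contra h0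
    obtain ⟨a, b, ha, hb, hab⟩ := coeff_D_dil_ne h0
    have h1 := sq_mod_eight ha
    have h2 := sq_mod_eight hb
    omega

/-- [REP], in the words of the row -/
theorem rep {l : ℕ} (hl : l.Prime) :
    (l % 8 = 3 → PowerSeries.coeff l (D ^ 3) = 1 ∧ PowerSeries.coeff l (D ^ 5) = 0) ∧
      (l % 8 = 5 → PowerSeries.coeff l (D ^ 3) = 0 ∧ PowerSeries.coeff l (D ^ 5) = 1) :=
  ⟨fun h => ⟨(coeff_three hl).1 h, (coeff_five hl).2 (by omega)⟩,
    fun h => ⟨(coeff_three hl).2 (by omega), (coeff_five hl).1 h⟩⟩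

end Vale.Agent.P022.H601
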