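import Mathlib

/-!
# P022, chapter G: groups of automorphisms of a finite `2`-group which fix all characters of order 2

`gen_of_chars` (Burnside basis theorem), `isPGroup_of_fix` (such a group is a `2`-group),
and the consequence for the action on characters of a subgroup.
-/

namespace Vale.Agent.P022.H601

open Subgroup

variable {P : Type*} [Group P]

/-- a maximal subgroup of a finite `2`-group is the kernel of a character of order two -/
theorem coatom_char [Finite P] (hP : IsPGroup 2 P) (K : Subgroup P) (hK : IsCoatom K) :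
    ∃ χ : P →* Multiplicative (ZMod 2), χ.ker = K := by
  have hn : Group.IsNilpotent P := hP.isNilpotent
  have hnc : NormalizerCondition P := Group.normalizerCondition_of_isNilpotent
  have hN : K.Normal := NormalizerCondition.normal_of_coatom K hnc hK
  have hQ : IsPGroup 2 (P ⧸ K) := hP.to_quotient K
  have hnt : Nontrivial (P ⧸ K) := by
    rw [QuotientGroup.nontrivial_iff]
    exact hK.1
  obtain ⟨n, hn0, hc⟩ := hQ.nontrivial_iff_card.1 hnt
  have h2 : 2 ∣ Nat.card (P ⧸ K) := by
    rw [hc]
    exact dvd_pow_self 2 hn0.ne'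
  obtain ⟨g, hg⟩ := exists_prime_orderOf_dvd_card' (G := P ⧸ K) 2 h2
  have hg1 : g ≠ 1 := by
    rintro rfl
    rw [orderOf_one] at hg
    omega
  have hlt : K < (zpowers g).comap (QuotientGroup.mk' K) := by
    refine lt_of_le_of_ne ?_ ?_
    · intro x hx
      rw [mem_comap]
      have : QuotientGroup.mk' K x = 1 := (QuotientGroup.eq_one_iff x).2 hx
      rw [this]
      exact one_mem _
    · intro h
      obtain ⟨x, rfl⟩ := QuotientGroup.mk'_surjective K g
      have hx : x ∈ (zpowers (QuotientGroup.mk' K x)).comap (QuotientGroup.mk' K) :=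
        mem_comap.2 (mem_zpowers _)
      rw [← h] at hx
      exact hg1 ((QuotientGroup.eq_one_iff x).2 hx)
  have htop := hK.2 _ hlt
  have hz : zpowers g = ⊤ := by
    rw [eq_top_iff]
    intro y _
    obtain ⟨x, rfl⟩ := QuotientGroup.mk'_surjective K y
    have : x ∈ (zpowers g).comap (QuotientGroup.mk' K) := by
      rw [htop]
      exact mem_top x
    exact mem_comap.1 this
  have hcard : Nat.card (P ⧸ K) = 2 := by
    rw [← hg, ← Nat.card_zpowers, hz, Subgroup.card_top]
  have hcard2 : Nat.card (Multiplicative (ZMod 2)) = 2 := by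
    rw [Nat.card_congr Multiplicative.toAdd, Nat.card_zmod]
  have : Fact (Nat.Prime 2) := ⟨Nat.prime_two⟩
  let e : (P ⧸ K) ≃* Multiplicative (ZMod 2) := mulEquivOfPrimeCardEq hcard hcard2
  refine ⟨e.toMonoidHom.comp (QuotientGroup.mk' K), ?_⟩
  ext x
  rw [MonoidHom.mem_ker, MonoidHom.comp_apply]
  change e (QuotientGroup.mk' K x) = 1 ↔ _
  rw [e.map_eq_one_iff]
  exact QuotientGroup.eq_one_iff x

/-- Burnside: a subset of a finite `2`-group on which no nontrivial character of order two
vanishes generates the group -/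
theorem gen_of_chars [Finite P] (hP : IsPGroup 2 P) (S : Set P)
    (h : ∀ χ : P →* Multiplicative (ZMod 2), (∀ s ∈ S, χ s = 1) → χ = 1) :
    Subgroup.closure S = ⊤ := by
  rcases eq_top_or_exists_le_coatom (Subgroup.closure S) with h1 | ⟨K, hK, hle⟩
  · exact h1
  · exfalso
    obtain ⟨χ, hχ⟩ := coatom_char hP K hK
    have h2 : χ = 1 := h χ fun s hs => by
      rw [← MonoidHom.mem_ker, hχ]
      exact hle (Subgroup.subset_closure hs)
    apply hK.1
    rw [← hχ, h2]
    exact MonoidHom.ker_one

/-- the elements with the same characters as `x` -/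
def Fib (x : P) : Type _ := {y : P // ∀ χ : P →* Multiplicative (ZMod 2), χ y = χ x}

/-- the intersection of the kernels of the characters of order two -/
def Phi (P : Type*) [Group P] : Subgroup P where
  carrier := {y | ∀ χ : P →* Multiplicative (ZMod 2), χ y = 1}
  mul_mem' {a b} ha hb χ := by rw [map_mul, ha χ, hb χ, one_mul]
  one_mem' χ := map_one χ
  inv_mem' {a} ha χ := by rw [map_inv, ha χ, inv_one]

theorem card_fib (x : P) : Nat.card (Fib x) = Nat.card (Phi P) := by
  refine Nat.card_congr ?_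
  refine ⟨fun y => ⟨x⁻¹ * y.1, fun χ => ?_⟩, fun y => ⟨x * y.1, fun χ => ?_⟩, fun y => ?_,
    fun y => ?_⟩
  · rw [map_mul, map_inv, y.2 χ, inv_mul_cancel]
  · rw [map_mul, y.2 χ, mul_one]
  · exact Subtype.ext (mul_inv_cancel_left x y.1)
  · exact Subtype.ext (inv_mul_cancel_left x y.1)

/-- a group of automorphisms of a finite `2`-group which fixes every character of order two is a
`2`-group -/
theorem isPGroup_of_fix [Finite P] (hP : IsPGroup 2 P) (A : Subgroup (MulAut P))
    (h : ∀ α ∈ A, ∀ χ : P →* Multiplicative (ZMod 2), ∀ x, χ (α x) = χ x) : IsPGroup 2 A := by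
  have : Finite (MulAut P) := DFunLike.finite _
  rw [isPGroup_iff_primeFactors_card_subset (by norm_num : (2 : ℕ) ≠ 0)]
  intro q hq
  have hqp : q.Prime := Nat.prime_of_mem_primeFactors hq
  have hqd : q ∣ Nat.card A := Nat.dvd_of_mem_primeFactors hq
  by_contra hq2
  have hq2' : q ≠ 2 := by
    rintro rfl
    exact hq2 (by rw [Nat.Prime.primeFactors Nat.prime_two]; exact Finset.mem_singleton_self 2)
  have : Fact q.Prime := ⟨hqp⟩
  obtain ⟨β, hβ⟩ := exists_prime_orderOf_dvd_card' (G := A) q hqd
  have hβ1 : β ≠ 1 := by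
    rintro rfl
    rw [orderOf_one] at hβ
    exact hqp.one_lt.ne hβ
  apply hβ1
  -- the action on the fibres
  have key : ∀ x : P, ∃ y : P, (∀ χ : P →* Multiplicative (ZMod 2), χ y = χ x) ∧
      (β : MulAut P) y = y := by
    intro x
    let act : MulAction A (Fib x) :=
      { smul := fun α y => ⟨(α : MulAut P) y.1, fun χ => (h α α.2 χ y.1).trans (y.2 χ)⟩
        one_smul := fun y => rfl
        mul_smul := fun α γ y => rfl }
    have hz : IsPGroup q (zpowers β) := by
      refine IsPGroup.of_card (n := 1) ?_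
      rw [Nat.card_zpowers, hβ, pow_one]
    have : Finite (Fib x) := Subtype.finite
    have hnd : ¬ q ∣ Nat.card (Fib x) := by
      rw [card_fib]
      obtain ⟨n, hn⟩ := (IsPGroup.iff_card (p := 2)).1 (hP.to_subgroup (Phi P))
      rw [hn]
      intro hd
      exact hq2' ((Nat.prime_dvd_prime_iff_eq hqp Nat.prime_two).1 (hqp.dvd_of_dvd_pow hd))
    obtain ⟨y, hy⟩ := hz.nonempty_fixed_point_of_prime_not_dvd_card (Fib x) hnd
    refine ⟨y.1, y.2, ?_⟩
    exact congrArg Subtype.val (hy ⟨β, mem_zpowers β⟩)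
  -- the fixed points generate
  have hgen : Subgroup.closure {y : P | (β : MulAut P) y = y} = ⊤ := by
    refine gen_of_chars hP _ fun χ hχ => ?_
    ext x
    obtain ⟨y, hy, hby⟩ := key x
    rw [← hy χ, hχ y hby, MonoidHom.one_apply]
  have hF : (((β : MulAut P) : P ≃* P) : P →* P).eqLocus (MonoidHom.id P) = ⊤ := by
    rw [eq_top_iff, ← hgen, Subgroup.closure_le]
    intro y hy
    exact hy
  apply Subtype.ext
  apply MulEquiv.ext
  intro x
  have hx : x ∈ (((β : MulAut P) : P ≃* P) : P →* P).eqLocus (MonoidHom.id P) := by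
    rw [hF]
    exact mem_top x
  exact hx

/-- a group `G` acting on a finite `2`-group `P` by automorphisms, trivially on the characters of
order two, acts through a `2`-group -/
theorem range_isPGroup {G : Type*} [Group G] [Finite P] (hP : IsPGroup 2 P) (ρ : G →* MulAut P)
    (h : ∀ g, ∀ χ : P →* Multiplicative (ZMod 2), ∀ x, χ (ρ g x) = χ x) : IsPGroup 2 ρ.range :=
  isPGroup_of_fix hP ρ.range fun α hα χ x => by
    obtain ⟨g, rfl⟩ := hα
    exact h g χ x

/-- elementwise form: every element of `G` has a power `2 ^ k` which acts trivially, with one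
`k` for all -/
theorem exists_pow_eq {G : Type*} [Group G] [Finite P] (hP : IsPGroup 2 P) (ρ : G →* MulAut P)
    (h : ∀ g, ∀ χ : P →* Multiplicative (ZMod 2), ∀ x, χ (ρ g x) = χ x) :
    ∃ k : ℕ, ∀ g x, ρ (g ^ 2 ^ k) x = x := by
  have : Finite (MulAut P) := DFunLike.finite _
  obtain ⟨n, hn⟩ := (IsPGroup.iff_card (p := 2)).1 (range_isPGroup hP ρ h)
  refine ⟨n, fun g x => ?_⟩
  have h1 : (⟨ρ g, ⟨g, rfl⟩⟩ : ρ.range) ^ Nat.card ρ.range = 1 := pow_card_eq_one'
  rw [hn] at h1
  have h2 := congrArg Subtype.val h1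
  rw [Subgroup.coe_pow, Subgroup.coe_one] at h2
  rw [map_pow, h2]
  rfl

/-- the action on a subgroup `H` stable under `G`, and on the homomorphisms of `H` to any group:
`g ^ (2 ^ k)` fixes all of them -/
theorem exists_pow_hom {G : Type*} [Group G] [Finite P] (hP : IsPGroup 2 P) (ρ : G →* MulAut P)
    (h : ∀ g, ∀ χ : P →* Multiplicative (ZMod 2), ∀ x, χ (ρ g x) = χ x) (H : Subgroup P)
    (hH : ∀ g, ∀ x ∈ H, ρ g x ∈ H) {M : Type*} [Group M] :
    ∃ k : ℕ, ∀ (g : G) (φ : H →* M) (x : H),
      φ ⟨ρ (g ^ 2 ^ k) x, hH _ _ x.2⟩ = φ x := by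
  obtain ⟨k, hk⟩ := exists_pow_eq hP ρ h
  refine ⟨k, fun g φ x => ?_⟩
  congr 1
  exact Subtype.ext (hk g x)

end Vale.Agent.P022.H601
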