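import Mathlib
import Vale.Agent.P022.H601.Quad
import Vale.Agent.P022.H619.L3.Val
import Vale.Agent.P022.H783.KeyD

/-!
# P022-L3, chapter G, [HQ]: the hypothesis `hq` of `H783.key`

`k` algebraically closed, `F = k(p)`, `A` a valuation ring of `F` above the Gauss valuation; every
quadratic extension of `F` inside `L` which is unramified outside the points of `S` is generated by
the square root of an element of `A` whose residue is not a square.
-/

open Polynomial IsLocalRing
open Vale.Agent.P022.H716 (IsOrd)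
open Vale.Agent.P022.H619.L3 (IsGauss ev)

namespace Vale.Agent.P022.H601

section

variable {k : Type*} [Field k] {O : ValuationSubring k}

/-- the restriction to a subfield of a ring above the Gauss valuation is above the Gauss
valuation -/
theorem IsGauss_comap {F K : Type*} [Field F] [Field K] [Algebra k F] [Algebra k K] [Algebra F K]
    [IsScalarTower k F K] {V : ValuationSubring K} {p : F}
    (hV : IsGauss O V (algebraMap F K p)) : IsGauss O (V.comap (algebraMap F K)) p := by
  have h1 : ∀ P : Polynomial O, algebraMap F K (ev O p P) = ev O (algebraMap F K p) P := by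
    intro P
    exact (aeval_algebraMap_apply K p _).symm
  have h2 : ∀ x : F, x ∈ (V.comap (algebraMap F K)).nonunits ↔ algebraMap F K x ∈ V.nonunits := by
    intro x
    by_cases hx : x = 0
    · rw [hx, map_zero]
      exact ⟨fun _ => V.nonunits.zero_mem, fun _ => (V.comap _).nonunits.zero_mem⟩
    · rw [ValuationSubring.mem_nonunits_iff, ValuationSubring.mem_nonunits_iff,
        Vale.Agent.P022.H783.lt_one_iff _ hx,
        Vale.Agent.P022.H783.lt_one_iff _ (by simpa using hx), ValuationSubring.mem_comap, map_inv₀]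
  refine ⟨fun P => ?_, fun P hP => ?_, fun P hP => ?_⟩
  · rw [ValuationSubring.mem_comap, h1]
    exact hV.mem P
  · rw [h2, h1]
    exact hV.max P hP
  · rw [h2, h1]
    exact hV.unit P hP

/-- an element of `O` is in every ring above the Gauss valuation -/
theorem IsGauss_const {F : Type*} [Field F] [Algebra k F] {A : ValuationSubring F} {p : F}
    (hA : IsGauss O A p) (c : O) : algebraMap k F c ∈ A := by
  have h := hA.mem (C c)
  simpa [ev] using h

theorem IsGauss_self {F : Type*} [Field F] [Algebra k F] {A : ValuationSubring F} {p : F}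
    (hA : IsGauss O A p) : p ∈ A := by
  have h := hA.mem X
  simpa [ev] using h

/-- [HQ] the hypothesis `hq` of `H783.key` -/
theorem hq_of [IsAlgClosed k] {F L : Type*} [Field F] [Field L] [Algebra k F] [Algebra k L]
    [Algebra F L] [IsScalarTower k F L] {A : ValuationSubring F} {p : F}
    (hF : IntermediateField.adjoin k {p} = ⊤) (hA : IsGauss O A p) (S : Finset O)
    (hS : Set.InjOn (residue O) S)
    (hpt : ∀ a : k, (∀ s ∈ S, (s : k) ≠ a) → ∃ u : L → WithTop ℤ, IsOrd u ∧
      (∀ c : k, c ≠ 0 → u (algebraMap k L c) = 0) ∧ u (algebraMap F L p - algebraMap k L a) = 1)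
    (s : L) (hs0 : s ≠ 0) (hs : s ∉ Set.range (algebraMap F L))
    (hs2 : s ^ 2 ∈ Set.range (algebraMap F L)) :
    ∃ c : F, c ≠ 0 ∧ ∃ u : A, algebraMap A L u = (algebraMap F L c * s) ^ 2 ∧
      ∀ x : A, x ^ 2 - u ∉ maximalIdeal A := by
  classical
  have hr : ∀ x : L, x ∈ IntermediateField.adjoin k {algebraMap F L p} ↔
      x ∈ Set.range (algebraMap F L) := by
    intro x
    have h1 : (⊤ : IntermediateField k F).map (IsScalarTower.toAlgHom k F L) =
        IntermediateField.adjoin k {algebraMap F L p} := by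
      rw [← hF, IntermediateField.adjoin_map, Set.image_singleton]
      rfl
    rw [← h1, IntermediateField.mem_map]
    constructor
    · rintro ⟨y, -, hy⟩
      exact ⟨y, hy⟩
    · rintro ⟨y, hy⟩
      exact ⟨y, IntermediateField.mem_top, hy⟩
  obtain ⟨c, hc, hc0, I, hI, h1⟩ := quad (k := k) (algebraMap F L p) {a : k | ∃ s ∈ S, (s : k) = a}
    (fun a ha => hpt a fun s hs h => ha ⟨s, hs, h⟩) s hs0 ((hr _).2 hs2)
  obtain ⟨c₀, rfl⟩ := (hr c).1 hc
  have hc₀ : c₀ ≠ 0 := by
    rintro rfl
    exact hc0 (map_zero _)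
  let T : Finset O := S.filter fun s => (s : k) ∈ I
  have hTI : T.map ⟨(fun s : O => (s : k)), Subtype.val_injective⟩ = I := by
    ext a
    rw [Finset.mem_map]
    constructor
    · rintro ⟨t, ht, rfl⟩
      exact (Finset.mem_filter.1 ht).2
    · intro ha
      obtain ⟨t, ht, hta⟩ := hI a ha
      refine ⟨t, Finset.mem_filter.2 ⟨ht, ?_⟩, hta⟩
      rw [hta]
      exact ha
  have hprod : ∏ i ∈ I, (algebraMap F L p - algebraMap k L i) =
      algebraMap F L (∏ t ∈ T, (p - algebraMap k F (t : k))) := by
    rw [← hTI, Finset.prod_map, map_prod]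
    refine Finset.prod_congr rfl fun t _ => ?_
    rw [map_sub, ← IsScalarTower.algebraMap_apply k F L]
    rfl
  have hTne : T.Nonempty := by
    by_contra h
    rw [Finset.not_nonempty_iff_eq_empty] at h
    rw [hprod, h, Finset.prod_empty, map_one, mul_one] at h1
    apply hs
    rcases sq_eq_sq_iff_eq_or_eq_neg.1 h1 with h2 | h2
    · exact ⟨c₀, h2.symm⟩
    · exact ⟨-c₀, by rw [map_neg, h2]⟩
  have hu : ∏ t ∈ T, (p - algebraMap k F (t : k)) ∈ A :=
    prod_mem fun t _ => sub_mem (IsGauss_self hA) (IsGauss_const hA t)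
  refine ⟨c₀⁻¹, inv_ne_zero hc₀, ⟨_, hu⟩, ?_, fun x hx => ?_⟩
  · change algebraMap F L (∏ t ∈ T, (p - algebraMap k F (t : k))) = _
    rw [mul_pow, h1, hprod, map_inv₀, ← mul_assoc, ← mul_pow, inv_mul_cancel₀ hc0, one_pow,
      one_mul]
  · rw [← ValuationSubring.coe_mem_nonunits_iff] at hx
    have hxF : (x : F) ∈ IntermediateField.adjoin k {p} := by
      rw [hF]
      exact IntermediateField.mem_top
    obtain ⟨P, Q, hPQ⟩ := (IntermediateField.mem_adjoin_simple_iff k _).1 hxF
    have hST : Set.InjOn (residue O) T := hS.mono (Finset.filter_subset _ _)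
    by_cases hQ : aeval p Q = 0
    · rw [hQ, div_zero] at hPQ
      refine hA.not_sq T hTne hST (g := (x : F)) x.2 (P := 0) (Q := 1) one_ne_zero ?_ hx
      rw [hPQ, zero_mul, map_zero]
    · refine hA.not_sq T hTne hST (g := (x : F)) x.2 (P := P) (Q := Q) ?_ ?_ hx
      · rintro rfl
        exact hQ (map_zero _)
      · rw [hPQ, div_mul_cancel₀ _ hQ]

/-- [KEY] with `hq` discharged: `K ⊃ F = k(p)`, `V` a ring of `K` above the Gauss valuation -/
theorem key_of [IsAlgClosed k] {F K L : Type*} [Field F] [Field K] [Field L] [Algebra k F]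
    [Algebra k K] [Algebra k L] [Algebra F K] [Algebra K L] [Algebra F L] [IsScalarTower F K L]
    [IsScalarTower k F K] [IsScalarTower k F L] [FiniteDimensional F L] [IsGalois F L]
    (h2 : IsUnit (2 : O)) {V : ValuationSubring K} {p : F}
    (hF : IntermediateField.adjoin k {p} = ⊤) (hV : IsGauss O V (algebraMap F K p))
    (hG : IsPGroup 2 Gal(L/F)) (S : Finset O) (hS : Set.InjOn (residue O) S)
    (hpt : ∀ a : k, (∀ s ∈ S, (s : k) ≠ a) → ∃ u : L → WithTop ℤ, IsOrd u ∧
      (∀ c : k, c ≠ 0 → u (algebraMap k L c) = 0) ∧ u (algebraMap F L p - algebraMap k L a) = 1)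
    (n : ℕ) {ζ : k} (hζ : IsPrimitiveRoot ζ (2 ^ n)) (f : K) (hf : V.valuation (f - 1) < 1)
    (h : L) (hh : h ^ (2 ^ n) = algebraMap K L f) : ∃ g : K, algebraMap K L g = h := by
  have hA := IsGauss_comap (F := F) hV
  have h2A : IsUnit (2 : (V.comap (algebraMap F K) : ValuationSubring F)) := by
    obtain ⟨b, hb⟩ := isUnit_iff_exists_inv.1 h2
    have hb' : (2 : k) * (b : k) = 1 := congrArg Subtype.val hb
    refine isUnit_iff_exists_inv.2 ⟨⟨algebraMap k F b, IsGauss_const hA b⟩, Subtype.ext ?_⟩
    change (2 : F) * algebraMap k F b = 1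
    rw [← map_ofNat (algebraMap k F) 2, ← map_mul, hb', map_one]
  exact Vale.Agent.P022.H783.key (V.comap (algebraMap F K)) V (fun x => Iff.rfl) h2A hG
    (hq_of hF hA S hS hpt) n (hζ.map_of_injective (algebraMap k F).injective) f hf h hh

theorem algebraMap_laurent (c : k) : algebraMap k (LaurentSeries k) c = HahnSeries.C c := by
  rw [HahnSeries.algebraMap_apply', PowerSeries.algebraMap_apply, Algebra.algebraMap_self,
    RingHom.id_apply, HahnSeries.ofPowerSeries_C]

/-- the same, with the points of `L` given as Laurent expansions -/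
theorem key_pts [IsAlgClosed k] {F K L : Type*} [Field F] [Field K] [Field L] [Algebra k F]
    [Algebra k K] [Algebra k L] [Algebra F K] [Algebra K L] [Algebra F L] [IsScalarTower F K L]
    [IsScalarTower k F K] [IsScalarTower k F L] [FiniteDimensional F L] [IsGalois F L]
    (h2 : IsUnit (2 : O)) {V : ValuationSubring K} {p : F}
    (hF : IntermediateField.adjoin k {p} = ⊤) (hV : IsGauss O V (algebraMap F K p))
    (hG : IsPGroup 2 Gal(L/F)) (S : Finset O) (hS : Set.InjOn (residue O) S)
    (hpt : ∀ a : k, (∀ s ∈ S, (s : k) ≠ a) → ∃ θ : L →ₐ[k] LaurentSeries k,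
      θ (algebraMap F L p) = HahnSeries.C a + HahnSeries.single 1 1)
    (n : ℕ) {ζ : k} (hζ : IsPrimitiveRoot ζ (2 ^ n)) (f : K) (hf : V.valuation (f - 1) < 1)
    (h : L) (hh : h ^ (2 ^ n) = algebraMap K L f) : ∃ g : K, algebraMap K L g = h := by
  refine key_of h2 hF hV hG S hS (fun a ha => ?_) n hζ f hf h hh
  obtain ⟨θ, hθ⟩ := hpt a ha
  exact exists_ord_of_pt (algebraMap F L p) a (θ : L →+* LaurentSeries k)
    (fun c => (θ.commutes c).trans (algebraMap_laurent c)) hθ

theorem adjoin_gen_top {K : Type*} [Field K] [Algebra k K] (p : K) :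
    IntermediateField.adjoin k {IntermediateField.AdjoinSimple.gen k p} = ⊤ := by
  apply IntermediateField.map_injective (IntermediateField.adjoin k {p}).val
  rw [IntermediateField.adjoin_map, Set.image_singleton, IntermediateField.coe_val,
    IntermediateField.AdjoinSimple.coe_gen, ← AlgHom.fieldRange_eq_map,
    IntermediateField.fieldRange_val]

/-- the same for `F = k(p)` as an intermediate field of `K` -/
theorem key_adj [IsAlgClosed k] {K L : Type*} [Field K] [Field L] [Algebra k K] [Algebra k L]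
    [Algebra K L] [IsScalarTower k K L] {p : K}
    [FiniteDimensional (IntermediateField.adjoin k {p}) L]
    [IsGalois (IntermediateField.adjoin k {p}) L]
    (h2 : IsUnit (2 : O)) {V : ValuationSubring K} (hV : IsGauss O V p)
    (hG : IsPGroup 2 (L ≃ₐ[IntermediateField.adjoin k {p}] L)) (S : Finset O)
    (hS : Set.InjOn (residue O) S)
    (hpt : ∀ a : k, (∀ s ∈ S, (s : k) ≠ a) → ∃ θ : L →ₐ[k] LaurentSeries k,
      θ (algebraMap K L p) = HahnSeries.C a + HahnSeries.single 1 1)
    (n : ℕ) {ζ : k} (hζ : IsPrimitiveRoot ζ (2 ^ n)) (f : K) (hf : V.valuation (f - 1) < 1)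
    (h : L) (hh : h ^ (2 ^ n) = algebraMap K L f) : ∃ g : K, algebraMap K L g = h :=
  key_pts (F := IntermediateField.adjoin k {p}) (K := K) (L := L) h2
    (p := IntermediateField.AdjoinSimple.gen k p) (adjoin_gen_top p) hV hG S hS hpt n hζ f hf h hh

end

end Vale.Agent.P022.H601
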