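import Vale.Agent.P022.H231.L3.Hk
import Vale.Agent.P022.H587.L3.Kum

/-!
# P022-L3, chapter G, the field `TU` of `Hk`

An element `x ≠ 0` of `Mer` has all its orders divisible by `N` if and only if it is an `N`-th
power in `Mer`; so the condition is stable under all ring homomorphisms and products.
-/

noncomputable section

namespace Vale.Agent.P022.H601

open Vale.Agent.P022.H218.L3 Vale.Agent.P022.H587.L3 Vale.Agent.P022.H231.L3

theorem Dv_iff {N : ℕ} (hN : 0 < N) {x : Mer} (hx : x ≠ 0) : Dv N x ↔ ∃ y : Mer, y ^ N = x := by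
  constructor
  · intro h
    obtain ⟨y, -, hy⟩ := exists_root hN hx h
    exact ⟨y, hy⟩
  · rintro ⟨y, rfl⟩
    refine Dv_pow N y ?_
    rintro rfl
    exact hx (zero_pow hN.ne')

theorem Dv_map {N : ℕ} (hN : 0 < N) {x : Mer} (hx : x ≠ 0) (h : Dv N x) (φ : Mer →+* Mer) :
    Dv N (φ x) := by
  obtain ⟨y, hy⟩ := (Dv_iff hN hx).1 h
  exact (Dv_iff hN ((map_ne_zero φ).2 hx)).2 ⟨φ y, by rw [← map_pow, hy]⟩

theorem Dv_prod {N : ℕ} (hN : 0 < N) {ι : Type*} [Fintype ι] {x : Mer} (hx : x ≠ 0) (h : Dv N x)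
    (φ : ι → (Mer →+* Mer)) : Dv N (∏ i, φ i x) := by
  obtain ⟨y, hy⟩ := (Dv_iff hN hx).1 h
  refine (Dv_iff hN (Finset.prod_ne_zero_iff.2 fun i _ => (map_ne_zero (φ i)).2 hx)).2
    ⟨∏ i, φ i y, ?_⟩
  rw [← Finset.prod_pow]
  exact Finset.prod_congr rfl fun i _ => by rw [← map_pow, hy]

theorem unit_ne {Γ : Subgroup (Matrix.SpecialLinearGroup (Fin 2) ℤ)} (f : (MF Γ)ˣ) :
    ((f : MF Γ) : Mer) ≠ 0 := fun h => f.ne_zero (Subtype.ext h)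

/-- `T_ℓ` preserves the functions with all orders divisible by `N` -/
theorem TK_Dv {P Q : ℤ} (ℓ : ℕ) {N : ℕ} (hN : 0 < N) (f : (MF (Gp P Q))ˣ)
    (hf : Dv N ((f : MF (Gp P Q)) : Mer)) :
    Dv N (((TK P Q ℓ f : (MF (Gp P Q))ˣ) : MF (Gp P Q)) : Mer) := by
  by_cases h : Gd P Q ℓ
  · rw [TK_coe h]
    exact Dv_prod hN (unit_ne f) hf fun i =>
      ((pbz (al P ℓ (dl P Q ℓ) i) (al_pos h.pr.pos _ i) : Mer ≃ₐ[ℂ] Mer) : Mer →+* Mer)
  · have e : TK P Q ℓ f = 1 := by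
      unfold TK
      rw [dif_neg h]
      rfl
    rw [e, Dv_iff hN (unit_ne 1)]
    exact ⟨1, one_pow N⟩

/-- the field `TU` of `Hk`, for any description `U` of the condition `Dv` -/
theorem TU {P Q : ℤ} (U : ℕ → Subgroup (MF (Gp P Q))ˣ)
    (hU : ∀ (n : ℕ) (f : (MF (Gp P Q))ˣ), f ∈ U (2 ^ n) ↔ Dv (2 ^ n) ((f : MF (Gp P Q)) : Mer))
    (ℓ n : ℕ) (f : (MF (Gp P Q))ˣ) (hf : f ∈ U (2 ^ n)) : TK P Q ℓ f ∈ U (2 ^ n) :=
  (hU n _).2 (TK_Dv ℓ (by positivity) f ((hU n f).1 hf))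

end Vale.Agent.P022.H601
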